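import Vale.Agent.P042.H372.LowP
import Vale.Agent.P042.H92.PLocal

/-!
# P042, row F.INF3 (A): the numbers of `OrdN` in the order of `Regime` (Option form)
-/

set_option autoImplicit false
set_option linter.unusedSectionVars false

namespace Vale.Agent.P042.H372

open Finset Vale.Agent.P042.H461 Vale.Agent.P042.H564.Oo Vale.Agent.P042.H284
open Vale.Agent.P042.H92 (Prm LF Scl)
open Vale.Agent.P042.H779.Ab.Ll (len)

/-- the threshold of the scales -/
noncomputable def K0r (CK : ℕ) (a0 γ : ℝ) : ℕ :=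
  ⌈(1000000 * 4 ^ CK * Real.exp (2 * a0) + a0 / γ) / Real.log 2⌉₊

theorem K0r_le {CK : ℕ} {a0 γ : ℝ} (ha0 : 0 ≤ a0) (hγ : 0 < γ) {n : ℕ} (hn : K0r CK a0 γ ≤ n) :
    1000000 * 4 ^ CK * Real.exp (2 * a0) ≤ n * Real.log 2 ∧ a0 ≤ γ * (n * Real.log 2) := by
  have hl : (0 : ℝ) < Real.log 2 := Real.log_pos (by norm_num)
  have h1 : (1000000 * 4 ^ CK * Real.exp (2 * a0) + a0 / γ) / Real.log 2 ≤ n := by
    refine (Nat.le_ceil _).trans ?_
    have h2 : ((K0r CK a0 γ : ℕ) : ℝ) ≤ n := by exact_mod_cast hn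
    exact h2
  rw [div_le_iff₀ hl] at h1
  have h2 : 0 ≤ a0 / γ := by positivity
  have h3 : 0 ≤ 1000000 * 4 ^ CK * Real.exp (2 * a0) := by positivity
  refine ⟨by linarith, ?_⟩
  have h4 : a0 / γ ≤ n * Real.log 2 := by linarith
  rw [div_le_iff₀ hγ] at h4
  linarith

/-- the threshold of `p` -/
noncomputable def p0r (C1 θ d1 : ℝ) : ℝ := max 1 (max (Real.log 2 / d1) (8 * (C1 + 2) / θ))

theorem p0r_len {C1 θ d1 p : ℝ} (hC1 : 0 ≤ C1) (hθ : 0 < θ) (hp : p0r C1 θ d1 ≤ p) :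
    Real.exp (p / 2) * (C1 * p + 2) ≤ θ * Real.exp p := by
  have hp1 : 1 ≤ p := (le_max_left _ _).trans hp
  have hp2 : 8 * (C1 + 2) / θ ≤ p := ((le_max_right _ _).trans (le_max_right _ _)).trans hp
  rw [div_le_iff₀ hθ] at hp2
  have h1 := Real.pow_div_factorial_le_exp (p / 2) (by linarith) 2
  have h2 : ((2 : ℕ).factorial : ℝ) = 2 := by norm_num [Nat.factorial]
  rw [h2] at h1
  have h3 : Real.exp p = Real.exp (p / 2) * Real.exp (p / 2) := by
    rw [← Real.exp_add]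
    congr 1
    ring
  have h4 : C1 * p + 2 ≤ θ * Real.exp (p / 2) := by
    have h5 : θ * ((p / 2) ^ 2 / 2) ≤ θ * Real.exp (p / 2) :=
      mul_le_mul_of_nonneg_left h1 hθ.le
    refine le_trans ?_ h5
    have h6 : C1 * p + 2 ≤ (C1 + 2) * p := by nlinarith
    have h7 : (C1 + 2) * p ≤ θ * ((p / 2) ^ 2 / 2) := by nlinarith
    exact h6.trans h7
  rw [h3]
  have h5 := (Real.exp_pos (p / 2)).le
  calc _ ≤ Real.exp (p / 2) * (θ * Real.exp (p / 2)) := mul_le_mul_of_nonneg_left h4 h5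
    _ = _ := by ring

theorem p0r_two {C1 θ d1 p : ℝ} (hd1 : 0 < d1) (hp : p0r C1 θ d1 ≤ p) :
    2 ≤ Real.exp (d1 * p) := by
  have hp2 : Real.log 2 / d1 ≤ p := ((le_max_left _ _).trans (le_max_right _ _)).trans hp
  rw [div_le_iff₀ hd1] at hp2
  calc (2 : ℝ) = Real.exp (Real.log 2) := (Real.exp_log (by norm_num)).symm
    _ ≤ _ := Real.exp_le_exp.2 (by linarith)

universe v u1

/-- the number of ordinary sites up to a scale -/
theorem card_le_scl {ι0 : Type u1} [Fintype ι0] {J : Type v} {Q : Prm} {K0 : ℕ} {ℓ es : ι0 → ℝ}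
    {sc : ι0 → J} {sn : J → ℕ} {ell : J → ℝ} (h : Scl Q K0 univ ℓ es sc sn ell) (n : ℕ) :
    ((univ.filter fun i => ell (sc i) ≤ n * Real.log 2).card : ℝ) ≤ 2 ^ (n + 1) := by
  classical
  have hl : (0 : ℝ) < Real.log 2 := Real.log_pos (by norm_num)
  have h1 : (univ.filter fun i => ell (sc i) ≤ n * Real.log 2).card =
      ∑ k ∈ range (n + 1), ((univ.filter fun i => ell (sc i) ≤ n * Real.log 2).filter
        fun i => sn (sc i) = k).card := by
    refine Finset.card_eq_sum_card_fiberwise fun i hi => ?_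
    have h2 := (Finset.mem_filter.1 (Finset.mem_coe.1 hi)).2
    rw [h.ell1] at h2
    have h3 : ((sn (sc i) : ℕ) : ℝ) ≤ n := le_of_mul_le_mul_right h2 hl
    rw [Finset.mem_coe, Finset.mem_range]
    have h4 : sn (sc i) ≤ n := by exact_mod_cast h3
    omega
  have h2 : ∀ k ∈ range (n + 1), (((univ.filter fun i => ell (sc i) ≤ n * Real.log 2).filter
        fun i => sn (sc i) = k).card : ℝ) ≤ 2 ^ k := by
    intro k _
    have h3 := h.card (k * Real.log 2)
    have h4 : Real.exp (k * Real.log 2) = 2 ^ k := by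
      rw [Real.exp_nat_mul, Real.exp_log (by norm_num)]
    rw [h4] at h3
    refine le_trans ?_ h3
    have h5 : ((univ.filter fun i => ell (sc i) ≤ n * Real.log 2).filter
        fun i => sn (sc i) = k) ⊆ univ.filter fun i => es i = k * Real.log 2 := by
      intro i hi
      have h6 := (Finset.mem_filter.1 hi).2
      rw [Finset.mem_filter]
      refine ⟨Finset.mem_univ _, ?_⟩
      rw [h.es1 i (Finset.mem_univ _), h.ell1, h6]
    exact_mod_cast Finset.card_le_card h5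
  rw [h1]
  push_cast
  refine (Finset.sum_le_sum h2).trans ?_
  have h3 : ∀ n : ℕ, ∑ k ∈ range (n + 1), (2 : ℝ) ^ k ≤ 2 ^ (n + 1) := by
    intro n
    induction n with
    | zero => norm_num
    | succ n ih =>
      rw [Finset.sum_range_succ]
      calc _ ≤ (2 : ℝ) ^ (n + 1) + 2 ^ (n + 1) := by linarith
        _ = _ := by ring
  exact h3 n

theorem two_pow_le (n : ℕ) (hn : 1 ≤ n) : (2 : ℝ) ^ (n + 1) + 1 ≤ Real.exp (3 * n) := by
  have h1 : (2 : ℝ) ^ (n + 1) + 1 ≤ 8 ^ n := by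
    induction n with
    | zero => omega
    | succ n ih =>
      rcases Nat.eq_zero_or_pos n with rfl | hn0
      · norm_num
      · have := ih hn0
        have h2 : (1 : ℝ) ≤ 2 ^ (n + 1) := one_le_pow₀ (by norm_num)
        calc (2 : ℝ) ^ (n + 1 + 1) + 1 ≤ 8 * (2 ^ (n + 1) + 1) := by
              rw [pow_succ]
              linarith
          _ ≤ 8 * 8 ^ n := by linarith
          _ = _ := by ring
  refine h1.trans ?_
  have h2 : (8 : ℝ) ≤ Real.exp 3 := by
    have h3 := Real.add_one_le_exp (1 : ℝ)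
    have h4 : Real.exp 3 = Real.exp 1 ^ 3 := by
      rw [← Real.exp_nat_mul]
      norm_num
    rw [h4]
    have h5 : (2 : ℝ) ≤ Real.exp 1 := by linarith
    calc (8 : ℝ) = 2 ^ 3 := by norm_num
      _ ≤ _ := pow_le_pow_left₀ (by norm_num) h5 3
  have h3 : Real.exp (3 * n) = Real.exp 3 ^ n := by
    rw [← Real.exp_nat_mul, mul_comm]
  rw [h3]
  exact pow_le_pow_left₀ (by norm_num) h2 n

/-- the sites of the marginal law, Option form -/
theorem card_po {ι0 : Type u1} [Fintype ι0] {J : Type v} {Q : Prm} {K0 : ℕ}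
    {ℓ es : ι0 → ℝ} {sc : ι0 → J} {sn : J → ℕ} {ell : J → ℝ}
    (h : Scl Q K0 univ ℓ es sc sn ell) (j : J) [DecidablePred (po sc ell j)]
    (hn : 1 ≤ sn j) : (Fintype.card {i // po sc ell j i} : ℝ) ≤ Real.exp (3 * sn j) := by
  classical
  have h0 : 0 ≤ ell j := by
    rw [h.ell1]
    have : (0 : ℝ) ≤ Real.log 2 := Real.log_nonneg (by norm_num)
    positivity
  have h1 : Fintype.card {i // po sc ell j i} ≤
      (univ.filter fun i => ell (sc i) ≤ sn j * Real.log 2).card + 1 := by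
    rw [Fintype.card_subtype]
    have h2 : (univ.filter fun i : Option ι0 => po sc ell j i) ⊆
        insert none ((univ.filter fun i => ell (sc i) ≤ sn j * Real.log 2).map
          Function.Embedding.some) := by
      intro i hi
      have h3 := (Finset.mem_filter.1 hi).2
      cases i with
      | none => exact Finset.mem_insert_self _ _
      | some i =>
        refine Finset.mem_insert_of_mem (Finset.mem_map_of_mem _ ?_)
        rw [Finset.mem_filter]
        refine ⟨Finset.mem_univ _, ?_⟩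
        rw [← h.ell1 j]
        exact h3
    refine (Finset.card_le_card h2).trans ((Finset.card_insert_le _ _).trans ?_)
    rw [Finset.card_map]
  have h2 := card_le_scl h (sn j)
  have h3 := two_pow_le (sn j) hn
  calc (Fintype.card {i // po sc ell j i} : ℝ) ≤
        ((univ.filter fun i => ell (sc i) ≤ sn j * Real.log 2).card : ℝ) + 1 := by
        exact_mod_cast h1
    _ ≤ 2 ^ (sn j + 1) + 1 := by linarith
    _ ≤ _ := h3

/-- **All numbers of `bhypO_plaw`**, in the order of `Regime`. -/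
theorem ordN_reg {C1 γ a0 θ d1 : ℝ} {CK : ℕ} (hCK : 1 ≤ CK) (hC1 : 1 ≤ C1) (hγ : 0 < γ)
    (ha0 : 0 ≤ a0) (hθ : 0 < θ) (hd1 : 0 < d1) (hd1' : d1 ≤ 1 / 4) {Q : Prm}
    (hp : p0r C1 θ d1 ≤ Q.p) (eC1 : Q.C1 = C1) (eγ : Q.γ = γ) (ea0 : Q.a0 = a0) (eθ : Q.θ = θ)
    (ed1 : Q.d1 = d1) (eCK : Q.CK = CK) {ι0 : Type u1} [Fintype ι0] [DecidableEq ι0]
    {J : Type v} {K0 : ℕ} (hK0 : K0r CK a0 γ ≤ K0) {ℓ es : Option ι0 → ℝ} {sc : ι0 → J}
    {sn : J → ℕ} {ell : J → ℝ}
    (h : Scl Q K0 univ (fun i => ℓ (some i)) (fun i => es (some i)) sc sn ell)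
    (hℓ0 : 0 ≤ ℓ none) (hℓ : ℓ none ≤ Real.exp (2 * Q.d1 * Q.p)) {b : ℕ} (hb : 1 ≤ b)
    (hb' : (b : ℝ) ≤ Real.exp (Q.d1 * Q.p) + 1) (j : J) [DecidablePred (po sc ell j)] :
    OrdN b (max (b + 1) ⌊ℓ none⌋₊) (sn j) Q.CK (ℓ none) Q.a0 ∧
      ((max (b + 1) ⌊ℓ none⌋₊ : ℕ) : ℝ) ≤ Real.exp (2 * Q.d1 * Q.p) ∧
      sn j * Real.log 2 ≤ Q.C1 * Q.p + 1 ∧
      (∀ A : Finset (Option ι0), A.card ≤ b + 1 → len ℓ A ≤ Q.Λ) ∧
      (Fintype.card {i // po sc ell j i} : ℝ) ≤ Real.exp (3 * sn j) ∧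
      (∀ j', Q.a0 ≤ Q.γ * ell j') ∧ 1 ≤ Q.p := by
  subst eC1 eγ ea0 eθ ed1 eCK
  have hp1 : 1 ≤ Q.p := (le_max_left _ _).trans hp
  have hnum : ∀ j', 1000000 * 4 ^ Q.CK * Real.exp (2 * Q.a0) ≤ sn j' * Real.log 2 ∧
      Q.a0 ≤ Q.γ * (sn j' * Real.log 2) := fun j' => K0r_le ha0 hγ (hK0.trans (h.K0 j'))
  have htwo := p0r_two (C1 := Q.C1) (θ := Q.θ) hd1 hp
  have hsq : Real.exp (2 * Q.d1 * Q.p) = Real.exp (Q.d1 * Q.p) * Real.exp (Q.d1 * Q.p) := by
    rw [← Real.exp_add]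
    congr 1
    ring
  have hb2 : (b : ℝ) + 1 ≤ Real.exp (2 * Q.d1 * Q.p) := by
    rw [hsq]
    nlinarith
  refine ⟨⟨hb, hℓ0, ha0, rfl, hCK, (hnum j).1⟩, ?_, ?_, ?_, ?_, ?_, hp1⟩
  · rw [Nat.cast_max]
    refine max_le (by push_cast; exact hb2) ((Nat.floor_le hℓ0).trans hℓ)
  · rw [← h.ell1]
    exact h.top j
  · intro A hA
    have h1 : len ℓ A ≤ ∑ i ∈ A, ((Q.C1 * Q.p + 1) +
        if i = none then Real.exp (2 * Q.d1 * Q.p) else 0) := by
      refine Finset.sum_le_sum fun i _ => ?_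
      cases i with
      | none =>
        rw [if_pos rfl]
        have : 0 ≤ Q.C1 * Q.p := by positivity
        linarith
      | some i =>
        rw [if_neg (by simp), add_zero]
        refine (h.up i (Finset.mem_univ _)).trans ?_
        rw [h.es1 i (Finset.mem_univ _)]
        exact h.top _
    refine h1.trans ?_
    rw [Finset.sum_add_distrib, Finset.sum_const, nsmul_eq_mul]
    have h2 : ∑ i ∈ A, (if i = none then Real.exp (2 * Q.d1 * Q.p) else 0) ≤
        Real.exp (2 * Q.d1 * Q.p) := by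
      rw [Finset.sum_ite_eq' A none]
      split_ifs
      · exact le_rfl
      · exact (Real.exp_pos _).le
    have h3 : (A.card : ℝ) ≤ Real.exp (2 * Q.d1 * Q.p) := by
      have : (A.card : ℝ) ≤ (b : ℝ) + 1 := by exact_mod_cast hA
      linarith
    have h4 : 0 ≤ Q.C1 * Q.p + 1 := by positivity
    calc _ ≤ Real.exp (2 * Q.d1 * Q.p) * (Q.C1 * Q.p + 1) + Real.exp (2 * Q.d1 * Q.p) :=
          add_le_add (mul_le_mul_of_nonneg_right h3 h4) h2
      _ = Real.exp (2 * Q.d1 * Q.p) * (Q.C1 * Q.p + 2) := by ring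
      _ ≤ Real.exp (Q.p / 2) * (Q.C1 * Q.p + 2) := by
          apply mul_le_mul_of_nonneg_right _ (by positivity)
          apply Real.exp_le_exp.2
          nlinarith
      _ ≤ Q.θ * Real.exp Q.p := p0r_len (by linarith) hθ hp
  · refine card_po h j ?_
    have h1 := (hnum j).1
    by_contra hc
    have h2 : sn j = 0 := by omega
    rw [h2] at h1
    have h3 : 0 < 1000000 * 4 ^ Q.CK * Real.exp (2 * Q.a0) := by positivity
    simp at h1
    linarith
  · intro j'
    rw [h.ell1]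
    exact (hnum j').2

end Vale.Agent.P042.H372
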