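import Vale.Agent.P042.H372.RwLow
import Vale.Agent.P042.H564.OoAsm
import Vale.Agent.P042.H742.BOo
import Vale.Agent.P042.H92.PDef

/-!
# P042, row F.INF3 (A): from `PLaw` to the rows with the extra coordinate, low top scales
-/

set_option autoImplicit false
set_option linter.unusedSectionVars false

namespace Vale.Agent.P042.H372

open Finset Vale.Agent.P042.H232 Vale.Agent.P042.H461 Vale.Agent.P042.H742 Vale.Agent.P042.H365
  Vale.Agent.P042.H416 Vale.Agent.P042.H564.Oo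
open Vale.Agent.P042.H779 (marg m1)
open Vale.Agent.P042.H92 (Prm LF tF costP)
open Vale.Agent.P042.H779.Ab.Ll (len)

/-! ### numbers -/

/-- The numbers of one order `b`, one top scale `n` and one extra coordinate of size `exp y`. -/
structure OrdN (b m n CK : ℕ) (y a0 : ℝ) : Prop where
  b1 : 1 ≤ b
  y0 : 0 ≤ y
  ha0 : 0 ≤ a0
  hm : m = max (b + 1) ⌊y⌋₊
  CK1 : 1 ≤ CK
  hn : 1000000 * 4 ^ CK * Real.exp (2 * a0) ≤ n * Real.log 2

namespace OrdN

variable {b m n CK : ℕ} {y a0 σ : ℝ} (H : OrdN b m n CK y a0)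
include H

theorem ell_large : (1000000 : ℝ) ≤ n * Real.log 2 := by
  refine le_trans ?_ H.hn
  have h1 : (1 : ℝ) ≤ 4 ^ CK := one_le_pow₀ (by norm_num)
  have h2 : 1 ≤ Real.exp (2 * a0) := Real.one_le_exp (by linarith [H.ha0])
  calc (1000000 : ℝ) = 1000000 * 1 * 1 := by ring
    _ ≤ _ := by gcongr

theorem log2 : (0 : ℝ) < Real.log 2 := Real.log_pos (by norm_num)

theorem nn_ge : n * Real.log 2 ≤ n := by
  have h : Real.log 2 ≤ 1 := by linarith [Real.log_two_lt_d9]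
  have h2 : (0 : ℝ) ≤ n := Nat.cast_nonneg _
  nlinarith

theorem nn_le : (n : ℝ) ≤ 2 * (n * Real.log 2) := by
  have h : (1 : ℝ) / 2 ≤ Real.log 2 := by linarith [Real.log_two_gt_d9]
  have h2 : (0 : ℝ) ≤ n := Nat.cast_nonneg _
  nlinarith

theorem nn_large : (1000000 : ℝ) ≤ n := H.ell_large.trans H.nn_ge

theorem b1' : (1 : ℝ) ≤ b := by exact_mod_cast H.b1

theorem m_ge : (b : ℝ) + 1 ≤ m := by
  have h : b + 1 ≤ m := by rw [H.hm]; exact le_max_left _ _
  exact_mod_cast h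

theorem m_y : y ≤ m + 1 := by
  have h : ⌊y⌋₊ ≤ m := by rw [H.hm]; exact le_max_right _ _
  have h1 : ((⌊y⌋₊ : ℕ) : ℝ) ≤ m := by exact_mod_cast h
  have h2 := Nat.lt_floor_add_one y
  linarith

theorem m_le : (m : ℝ) ≤ 2 * b * (1 + y) := by
  have hb := H.b1'
  have hy := H.y0
  have h1 : ((b + 1 : ℕ) : ℝ) ≤ 2 * b * (1 + y) := by
    push_cast
    have : 0 ≤ b * y := by positivity
    nlinarith
  have h2 : ((⌊y⌋₊ : ℕ) : ℝ) ≤ 2 * b * (1 + y) := by
    refine (Nat.floor_le hy).trans ?_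
    nlinarith
  rw [H.hm, Nat.cast_max]
  exact max_le h1 h2

theorem X_ge_n : 2 * (n : ℝ) ≤ m * n := by
  have h1 := H.m_ge
  have h2 := H.b1'
  have h3 : (0 : ℝ) ≤ n := Nat.cast_nonneg _
  nlinarith

theorem X_large : (1000000 : ℝ) ≤ m * n := by
  have := H.X_ge_n
  have := H.nn_large
  linarith

theorem X_ge_m : (m : ℝ) ≤ m * n := by
  have h1 := H.nn_large
  have h2 : (0 : ℝ) ≤ m := Nat.cast_nonneg _
  nlinarith

theorem X_b : 128 * (b : ℝ) ≤ m * n := by
  have h1 := H.nn_large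
  have h2 := H.m_ge
  have h3 := H.b1'
  nlinarith

theorem X_le : (m : ℝ) * n ≤ 4 * ((1 + y) * (b * (n * Real.log 2))) := by
  have h1 := H.m_le
  have h2 := H.nn_le
  have h3 := H.b1'
  have h4 := H.y0
  calc (m : ℝ) * n ≤ (2 * b * (1 + y)) * (2 * (n * Real.log 2)) :=
        mul_le_mul h1 h2 (Nat.cast_nonneg _) (by positivity)
    _ = _ := by ring

theorem Z_ge : n * Real.log 2 ≤ (1 + y) * (b * (n * Real.log 2)) := by
  have h1 := H.b1'
  have h2 := H.y0
  have h3 := H.ell_large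
  have h4 : n * Real.log 2 ≤ b * (n * Real.log 2) := by nlinarith
  have h5 : 0 ≤ y * (b * (n * Real.log 2)) := by positivity
  linarith

theorem Z_b : (b : ℝ) ≤ (1 + y) * (b * (n * Real.log 2)) := by
  have h1 := H.b1'
  have h2 := H.y0
  have h3 := H.ell_large
  have h4 : (b : ℝ) ≤ b * (n * Real.log 2) := by nlinarith
  have h5 : 0 ≤ y * (b * (n * Real.log 2)) := by positivity
  linarith

theorem Z_large : 1000000 * 4 ^ CK * Real.exp (2 * a0) ≤ (1 + y) * (b * (n * Real.log 2)) :=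
  H.hn.trans H.Z_ge

theorem Z1 : (1 : ℝ) ≤ (1 + y) * (b * (n * Real.log 2)) := by
  have := H.Z_ge
  have := H.ell_large
  linarith

/-- the rates and constants: `Kf = (m n)^CK` -/
theorem Kf128 : 128 * (b : ℝ) ≤ ((m : ℝ) * n) ^ CK := by
  refine H.X_b.trans ?_
  have h1 : (1 : ℝ) ≤ m * n := by linarith [H.X_large]
  exact le_self_pow₀ h1 (by have := H.CK1; omega)

/-- the basic inequality for `σ` -/
theorem sig (hσ0 : 0 ≤ σ) (hσ : σ ≤ (((1 + y) * (b * (n * Real.log 2))) ^ (CK + 9))⁻¹) {k : ℕ}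
    (hk : k + 1 ≤ CK + 9) {C : ℝ} (hC0 : 0 ≤ C)
    (hC : C ≤ 1000000 * 4 ^ CK * Real.exp (2 * a0)) :
    C * ((1 + y) * (b * (n * Real.log 2))) ^ k * σ ≤ 1 := by
  set Z := (1 + y) * (b * (n * Real.log 2)) with hZ
  have hZ1 : 1 ≤ Z := H.Z1
  have hZ0 : 0 < Z := by linarith
  have h1 : C ≤ Z := hC.trans H.Z_large
  calc C * Z ^ k * σ ≤ Z * Z ^ k * (Z ^ (CK + 9))⁻¹ := by gcongr
    _ = Z ^ (k + 1) * (Z ^ (CK + 9))⁻¹ := by rw [pow_succ]; ring
    _ ≤ Z ^ (CK + 9) * (Z ^ (CK + 9))⁻¹ := by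
        apply mul_le_mul_of_nonneg_right (pow_le_pow_right₀ hZ1 hk)
        positivity
    _ = 1 := mul_inv_cancel₀ (by positivity)

theorem e2a : 1 ≤ Real.exp (2 * a0) := Real.one_le_exp (by linarith [H.ha0])

theorem s1 (hσ0 : 0 ≤ σ) (hσ : σ ≤ (((1 + y) * (b * (n * Real.log 2))) ^ (CK + 9))⁻¹) :
    1000 * ((m : ℝ) * n) ^ CK * (2 * σ) * (b : ℝ) ^ 4 ≤ 1 := by
  have h1 := H.sig hσ0 hσ (k := CK + 4) (by omega) (C := 2000 * 4 ^ CK) (by positivity) (by
    have h2 := H.e2a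
    have h3 : (0 : ℝ) < 4 ^ CK := by positivity
    calc 2000 * (4 : ℝ) ^ CK ≤ 1000000 * 4 ^ CK * 1 := by nlinarith
      _ ≤ _ := mul_le_mul_of_nonneg_left h2 (by positivity))
  refine le_trans ?_ h1
  have h2 : ((m : ℝ) * n) ^ CK ≤ (4 * ((1 + y) * (b * (n * Real.log 2)))) ^ CK :=
    pow_le_pow_left₀ (by positivity) H.X_le CK
  have h3 : (b : ℝ) ^ 4 ≤ ((1 + y) * (b * (n * Real.log 2))) ^ 4 :=
    pow_le_pow_left₀ (by positivity) H.Z_b 4
  calc 1000 * ((m : ℝ) * n) ^ CK * (2 * σ) * (b : ℝ) ^ 4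
      = 2000 * (((m : ℝ) * n) ^ CK * (b : ℝ) ^ 4) * σ := by ring
    _ ≤ 2000 * ((4 * ((1 + y) * (b * (n * Real.log 2)))) ^ CK *
          ((1 + y) * (b * (n * Real.log 2))) ^ 4) * σ := by
        apply mul_le_mul_of_nonneg_right _ hσ0
        apply mul_le_mul_of_nonneg_left _ (by norm_num)
        exact mul_le_mul h2 h3 (by positivity) (by
          have := H.Z1
          positivity)
    _ = _ := by rw [mul_pow, pow_add]; ring

/-- the rate at the extra coordinate -/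
noncomputable def τ (m n : ℕ) : ℝ := 1 / (704 * LF m n)

omit H in
theorem LF_eq (m n : ℕ) : LF m n = ((m : ℝ) * n) ^ 4 := rfl

theorem LF_pos : 0 < LF m n := by
  rw [LF_eq]
  have := H.X_large
  positivity

theorem LF_large : 1000000 ≤ LF m n := by
  rw [LF_eq]
  have h := H.X_large
  have h1 : (1 : ℝ) ≤ m * n := by linarith
  exact h.trans (le_self_pow₀ h1 (by norm_num))

theorem τ_pos : 0 < τ m n := by
  unfold τ
  have := H.LF_pos
  positivity

theorem τ_le_one : τ m n ≤ 1 := by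
  unfold τ
  have := H.LF_large
  rw [div_le_one (by linarith)]
  linarith

theorem eps_eq : 704 * (1 / (704 * LF m n) + τ m n) * (LF m n / 2) ≤ 1 := by
  unfold τ
  have := H.LF_pos
  apply le_of_eq
  field_simp
  norm_num

theorem sm : ((b + 1 : ℕ) : ℝ) * (1 / LF m n + 6 * (LF m n / 2) *
    Real.exp (-(3 * (LF m n / 2)))) ≤ (1 / (704 * LF m n) + τ m n) * (LF m n / 2) := by
  have hLF := H.LF_large
  have hLF0 := H.LF_pos
  have e1 : (1 / (704 * LF m n) + τ m n) * (LF m n / 2) = 1 / 704 := by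
    unfold τ
    field_simp
    norm_num
  rw [e1]
  have h1 : 6 * (LF m n / 2) * Real.exp (-(3 * (LF m n / 2))) ≤ 1 / LF m n := by
    rw [Real.exp_neg, ← div_eq_mul_inv, div_le_div_iff₀ (Real.exp_pos _) hLF0, one_mul]
    have h2 := Real.pow_div_factorial_le_exp (3 * (LF m n / 2)) (by positivity) 3
    have h3 : ((3 : ℕ).factorial : ℝ) = 6 := by norm_num [Nat.factorial]
    rw [h3] at h2
    refine le_trans ?_ h2
    have h4 : 0 ≤ LF m n * LF m n := by positivity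
    nlinarith
  have h2 : ((b + 1 : ℕ) : ℝ) ≤ (m : ℝ) * n := by
    push_cast
    exact H.m_ge.trans H.X_ge_m
  have hX := H.X_large
  have hX0 : (0 : ℝ) < m * n := by linarith
  have h5 : (0 : ℝ) ≤ 1 / LF m n + 6 * (LF m n / 2) * Real.exp (-(3 * (LF m n / 2))) := by
    positivity
  calc _ ≤ ((m : ℝ) * n) * (1 / LF m n + 6 * (LF m n / 2) * Real.exp (-(3 * (LF m n / 2)))) :=
        mul_le_mul_of_nonneg_right h2 h5
    _ ≤ ((m : ℝ) * n) * (1 / LF m n + 1 / LF m n) :=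
        mul_le_mul_of_nonneg_left (by linarith) hX0.le
    _ = 2 / ((m : ℝ) * n) ^ 3 := by
        rw [LF_eq]
        field_simp
        ring
    _ ≤ 1 / 704 := by
        rw [div_le_div_iff₀ (by positivity) (by norm_num)]
        have h6 : ((m : ℝ) * n) ≤ ((m : ℝ) * n) ^ 3 := le_self_pow₀ (by linarith) (by norm_num)
        linarith

theorem lam' {N : ℝ} (hN0 : 0 < N) (hN : N ≤ Real.exp (3 * n)) :
    ((b + 1 : ℕ) : ℝ) * (2 * ((m : ℝ) * n) + Real.log (N * ((b + 1 : ℕ) : ℝ))) + 3 ≤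
      LF m n / 2 := by
  have hX := H.X_large
  have hn := H.X_ge_n
  have hb1 : (0 : ℝ) < ((b + 1 : ℕ) : ℝ) := by positivity
  have h2 : ((b + 1 : ℕ) : ℝ) ≤ (m : ℝ) * n := by
    push_cast
    exact H.m_ge.trans H.X_ge_m
  have h3 : Real.log (N * ((b + 1 : ℕ) : ℝ)) ≤ 3 * ((m : ℝ) * n) := by
    rw [Real.log_mul hN0.ne' hb1.ne']
    have h4 : Real.log N ≤ 3 * n := (Real.log_le_iff_le_exp hN0).2 hN
    have h5 : Real.log ((b + 1 : ℕ) : ℝ) ≤ ((b + 1 : ℕ) : ℝ) := by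
      have := Real.log_le_sub_one_of_pos hb1
      linarith
    linarith
  have h6 : 0 ≤ 2 * ((m : ℝ) * n) + 3 * ((m : ℝ) * n) := by linarith
  set X : ℝ := (m : ℝ) * n with hXd
  calc _ ≤ ((b + 1 : ℕ) : ℝ) * (2 * X + 3 * X) + 3 := by
        have := mul_le_mul_of_nonneg_left (add_le_add_right h3 (2 * X)) hb1.le
        linarith
    _ ≤ X * (2 * X + 3 * X) + 3 := by
        have := mul_le_mul_of_nonneg_right h2 h6
        linarith
    _ ≤ LF m n / 2 := by
        rw [LF_eq, ← hXd]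
        have h7 : 0 ≤ X ^ 2 := sq_nonneg X
        have h8 : (1000000 : ℝ) ^ 2 ≤ X ^ 2 := pow_le_pow_left₀ (by norm_num) hX 2
        nlinarith

/-- the first condition at the extra coordinate -/
theorem o1 (hσ0 : 0 ≤ σ) (hσ : σ ≤ (((1 + y) * (b * (n * Real.log 2))) ^ (CK + 9))⁻¹)
    {γ ρ : ℝ} (hγ : 0 ≤ γ) (hρ0 : 0 ≤ ρ) (hρ : Real.exp (2 * γ * y) * ρ ≤ 1) :
    2 * (b : ℝ) ^ 3 * (Real.exp (a0 + γ * y) * (2 * (σ * ρ))) ≤ τ m n := by
  unfold τ
  have hLF0 := H.LF_pos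
  rw [le_div_iff₀ (by positivity)]
  have h1 := H.sig hσ0 hσ (k := 7) (by omega) (C := 720896 * Real.exp (2 * a0)) (by positivity)
    (by
      have h3 : (1 : ℝ) ≤ 4 ^ CK := one_le_pow₀ (by norm_num)
      have h4 := Real.exp_pos (2 * a0)
      have h5 : Real.exp (2 * a0) ≤ 4 ^ CK * Real.exp (2 * a0) := by nlinarith
      linarith)
  refine le_trans ?_ h1
  set Z := (1 + y) * (b * (n * Real.log 2)) with hZ
  have hZ1 : 1 ≤ Z := H.Z1
  have hx4 : LF m n ≤ 256 * Z ^ 4 := by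
    rw [LF_eq]
    calc ((m : ℝ) * n) ^ 4 ≤ (4 * Z) ^ 4 := pow_le_pow_left₀ (by positivity) H.X_le 4
      _ = _ := by ring
  have hb3 : (b : ℝ) ^ 3 ≤ Z ^ 3 := pow_le_pow_left₀ (by positivity) H.Z_b 3
  have he : Real.exp (a0 + γ * y) * ρ ≤ Real.exp (2 * a0) := by
    have h5 : Real.exp (a0 + γ * y) ≤ Real.exp (2 * a0) * Real.exp (2 * γ * y) := by
      rw [← Real.exp_add]
      apply Real.exp_le_exp.2
      have := mul_nonneg hγ H.y0
      have := H.ha0
      linarith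
    calc _ ≤ (Real.exp (2 * a0) * Real.exp (2 * γ * y)) * ρ :=
          mul_le_mul_of_nonneg_right h5 hρ0
      _ = Real.exp (2 * a0) * (Real.exp (2 * γ * y) * ρ) := by ring
      _ ≤ Real.exp (2 * a0) * 1 := mul_le_mul_of_nonneg_left hρ (Real.exp_pos _).le
      _ = _ := mul_one _
  have he0 : 0 ≤ Real.exp (a0 + γ * y) * ρ := by positivity
  calc 2 * (b : ℝ) ^ 3 * (Real.exp (a0 + γ * y) * (2 * (σ * ρ))) * (704 * LF m n)
      = 2816 * ((b : ℝ) ^ 3 * LF m n) * (Real.exp (a0 + γ * y) * ρ) * σ := by ring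
    _ ≤ 2816 * (Z ^ 3 * (256 * Z ^ 4)) * Real.exp (2 * a0) * σ := by gcongr
    _ = _ := by ring

/-- the second condition at the extra coordinate -/
theorem o2 (hσ0 : 0 ≤ σ) (hσ : σ ≤ (((1 + y) * (b * (n * Real.log 2))) ^ (CK + 9))⁻¹)
    {γ ρ e : ℝ} (hρ0 : 0 ≤ ρ) (he0 : 0 ≤ e) (hρ : Real.exp (2 * γ * y) * ρ ≤ 1)
    (he : Real.exp (2 * γ * y) * e ≤ 1) :
    512 * (b : ℝ) ^ 4 * Real.exp (a0 + γ * y) ^ 2 * (2 * (σ * ρ) + 2 * (σ * e)) ≤ 1 := by
  have h1 := H.sig hσ0 hσ (k := 4) (by omega) (C := 2048 * Real.exp (2 * a0)) (by positivity)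
    (by
      have h3 : (1 : ℝ) ≤ 4 ^ CK := one_le_pow₀ (by norm_num)
      have h4 := Real.exp_pos (2 * a0)
      have h5 : Real.exp (2 * a0) ≤ 4 ^ CK * Real.exp (2 * a0) := by nlinarith
      linarith)
  refine le_trans ?_ h1
  set Z := (1 + y) * (b * (n * Real.log 2)) with hZ
  have hZ1 : 1 ≤ Z := H.Z1
  have hb4 : (b : ℝ) ^ 4 ≤ Z ^ 4 := pow_le_pow_left₀ (by positivity) H.Z_b 4
  have e1 : Real.exp (a0 + γ * y) ^ 2 = Real.exp (2 * a0) * Real.exp (2 * γ * y) := by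
    rw [← Real.exp_nat_mul, ← Real.exp_add]
    congr 1
    push_cast
    ring
  rw [e1]
  calc 512 * (b : ℝ) ^ 4 * (Real.exp (2 * a0) * Real.exp (2 * γ * y)) *
        (2 * (σ * ρ) + 2 * (σ * e))
      = 1024 * (b : ℝ) ^ 4 * Real.exp (2 * a0) * σ *
        (Real.exp (2 * γ * y) * ρ + Real.exp (2 * γ * y) * e) := by ring
    _ ≤ 1024 * Z ^ 4 * Real.exp (2 * a0) * σ * (1 + 1) := by
        apply mul_le_mul
        · gcongr
        · linarith
        · positivity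
        · positivity
    _ = _ := by ring

end OrdN

/-! ### the law -/

universe v

variable {J : Type v} {ι : Type*} [Fintype ι] [DecidableEq ι] {V : ι → Type*}
  [∀ i, Fintype (V i)] [∀ i, DecidableEq (V i)]

theorem i1m_of_sup {lam : ∀ i, V i → ℝ} {mu : (∀ i, V i) → ℝ} {ℓ : ι → ℝ} {a0 γ Λ : ℝ} {D : ℕ}
    (hmu : IsLaw mu) (h0 : ∀ i a, 0 ≤ lam i a) (ha0 : 0 ≤ a0)
    (hsup : ∀ A, len ℓ A ≤ Λ → ∀ x, marg mu A x ≤ Real.exp (a0 + γ * len ℓ A) * lw lam A x)
    (hlen : ∀ A : Finset ι, A.card ≤ D → len ℓ A ≤ Λ) :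
    H678.I1M lam (fun i => Real.exp (a0 + γ * ℓ i)) D mu := by
  intro A hA x
  have hlw : 0 ≤ lw lam A x := Finset.prod_nonneg fun i _ => h0 i _
  rcases A.eq_empty_or_nonempty with rfl | hne
  · have h1 : marg mu ∅ x = 1 := by
      unfold marg
      simpa using hmu.2
    rw [h1]
    simp [lw]
  · refine (hsup A (hlen A hA) x).trans (mul_le_mul_of_nonneg_right ?_ hlw)
    rw [← Real.exp_sum]
    apply Real.exp_le_exp.2
    rw [Finset.sum_add_distrib, Finset.sum_const, nsmul_eq_mul, ← Finset.mul_sum]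
    have h1 : (1 : ℝ) ≤ A.card := by exact_mod_cast hne.card_pos
    have h2 : a0 ≤ A.card * a0 := by nlinarith
    have h3 : len ℓ A = ∑ i ∈ A, ℓ i := rfl
    rw [h3]
    linarith

/-- the rates, with the rate `τ` at the extra coordinate -/
noncomputable def tO (Q : Prm) (S : Finset ι) (es : ι → ℝ) (m n : ℕ) (o : ι) : ι → ℝ :=
  Function.update (tF Q S es m n) o (OrdN.τ m n)

/-- **`PLaw` gives block [B] for the marginal law on the sites `q`, with the extra coordinate.** -/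
theorem bhypO_plaw {Q : Prm} {S : Finset ι} {ℓ es : ι → ℝ} {lam u : ∀ i, V i → ℝ}
    {mu : (∀ i, V i) → ℝ} (h : H92.PLaw Q S ℓ es lam u mu) {o : ι} (ho : o ∉ S)
    (hS : ∀ i, i ≠ o → i ∈ S) (hup : ∀ i ∈ S, ℓ i ≤ es i)
    (hℓ0 : ∀ i, 0 ≤ ℓ i) (q : ι → Prop) [DecidablePred q] (hqo : q o) {b m n : ℕ}
    (hq : ∀ i, q i → i ≠ o → es i ≤ n * Real.log 2)
    (hcard : (Fintype.card {i // q i} : ℝ) ≤ Real.exp (3 * n))
    (H : OrdN b m n Q.CK (ℓ o) Q.a0) (hm : (m : ℝ) ≤ Real.exp (2 * Q.d1 * Q.p))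
    (hn : n * Real.log 2 ≤ Q.C1 * Q.p + 1)
    (hlen : ∀ A : Finset ι, A.card ≤ b + 1 → len ℓ A ≤ Q.Λ) (hγ0 : 0 ≤ Q.γ) (hγ1 : Q.γ ≤ 1) :
    BHyp (V := fun i : {i // q i} => V i) (lsub q lam) (msub q mu)
      (fun i : {i // q i} => tO Q S es m n o i) (fun i => Real.exp (Q.a0 + Q.γ * ℓ i))
      (2 * ((m : ℝ) * n)) (LF m n / 2) (1 / (704 * LF m n) + OrdN.τ m n) (LF m n / 2)
      (Real.exp (-(3 * (LF m n / 2)))) (b + 1) := by
  have hmu : IsLaw mu := ⟨h.ref.prob.nonneg, h.ref.prob.sum_eq⟩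
  have hl2 := H.log2
  have hX := H.X_large
  have hX1 : (1 : ℝ) ≤ m * n := by linarith
  -- the rates
  have htF0 : ∀ i, 0 ≤ tF Q S es m n i := fun i => by
    unfold tF
    split_ifs
    · have := rate_pos ((1 - Q.G) * Q.p) (es i)
      positivity
    · exact le_rfl
  have htF1 : ∀ i, tF Q S es m n i ≤ 1 := fun i => by
    unfold tF
    split_ifs
    · rw [div_le_one (by positivity)]
      exact (rate_le_one _ _).trans (one_le_pow₀ hX1)
    · exact zero_le_one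
  have hτ0 := H.τ_pos
  have ht0 : ∀ i, 0 ≤ tO Q S es m n o i := fun i => by
    unfold tO
    by_cases hi : i = o
    · subst hi; rw [Function.update_self]; exact hτ0.le
    · rw [Function.update_of_ne hi]; exact htF0 i
  have ht1 : ∀ i, tO Q S es m n o i ≤ 1 := fun i => by
    unfold tO
    by_cases hi : i = o
    · subst hi; rw [Function.update_self]; exact H.τ_le_one
    · rw [Function.update_of_ne hi]; exact htF1 i
  have hto : tO Q S es m n o o = OrdN.τ m n := Function.update_self _ _ _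
  have htne : ∀ i, i ≠ o → tO Q S es m n o i = tF Q S es m n i := fun i hi =>
    Function.update_of_ne hi _ _
  have htp : ∀ i, q i → 0 < tO Q S es m n o i := by
    intro i hqi
    by_cases hi : i = o
    · subst hi; rw [hto]; exact hτ0
    · rw [htne i hi]
      unfold tF
      rw [if_pos ⟨hS i hi, hq i hqi hi⟩]
      have := rate_pos ((1 - Q.G) * Q.p) (es i)
      positivity
  -- (MEI)
  have hm1 : 1 ≤ m := by
    have h1 := H.m_ge
    have h2 := H.b1'
    have : (1 : ℝ) ≤ m := by linarith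
    exact_mod_cast this
  have hn1 : 1 ≤ n := by
    have : (1 : ℝ) ≤ n := by linarith [H.nn_large]
    exact_mod_cast this
  have hmei0 := h.mei m n hm1 hm hn1 hn
  have hupd : Function.update (tO Q S es m n o) o 0 = tF Q S es m n := by
    funext i
    by_cases hi : i = o
    · subst hi
      rw [Function.update_self]
      unfold tF
      rw [if_neg fun hc => ho hc.1]
    · rw [Function.update_of_ne hi, htne i hi]
  have hmei1 : MEIK (tO Q S es m n o) (1 / (704 * LF m n) + tO Q S es m n o o) (1 / LF m n)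
      (Real.exp (6 * LF m n)) mu := by
    refine MEIK.upd hmu ht0 ht1 ?_
    rw [hupd]
    exact hmei0
  rw [hto] at hmei1
  have hLF := H.LF_large
  have hLF0 := H.LF_pos
  have hmei : MEIK (tO Q S es m n o) (1 / (704 * LF m n) + OrdN.τ m n) (1 / LF m n)
      (Real.exp (6 * (LF m n / 2))) mu := by
    refine H858.MEIK_mono hmei1 hmu ht0 (fun i => le_rfl) ht1 le_rfl le_rfl ?_
    apply Real.exp_le_exp.2
    linarith
  -- the reference
  have hRef : Ref (V := fun i : {i // q i} => V i) (lsub q lam) (2 * ((m : ℝ) * n)) := by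
    refine ⟨fun i a => h.ref.w_nonneg i a, fun i => h.ref.w_sum i, fun i a => ?_⟩
    rcases h.lo i a with h1 | h1
    · exact Or.inl h1
    · right
      refine le_trans ?_ h1
      rw [h.u1, ← Real.exp_add]
      apply Real.exp_le_exp.2
      have hγℓ : Q.γ * ℓ i ≤ ℓ i := by
        have := mul_le_mul_of_nonneg_right hγ1 (hℓ0 i)
        linarith
      have hℓX : ℓ i ≤ (m : ℝ) * n := by
        by_cases hi : (i : ι) = o
        · rw [hi]
          have h2 := H.m_y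
          have h3 := H.nn_large
          have h4 : (1 : ℝ) ≤ m := by exact_mod_cast hm1
          nlinarith
        · have h2 := hup i (hS i hi)
          have h3 := hq i i.2 hi
          have h4 := H.nn_ge
          have h5 := H.X_ge_n
          have h6 : (0 : ℝ) ≤ n := Nat.cast_nonneg _
          linarith
      linarith
  have hI := i1m_of_sup hmu h.ref.w_nonneg H.ha0 h.sup hlen
  have hcard0 : (0 : ℝ) < Fintype.card {i // q i} := by
    have : Nonempty {i // q i} := ⟨⟨o, hqo⟩⟩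
    exact_mod_cast Fintype.card_pos
  exact bhyp_of_meik (H365.msub_isLaw hmu) hRef (H858.I1M_sub q hI hmu)
    (fun i => Real.one_le_exp (by
      have := mul_nonneg hγ0 (hℓ0 i)
      linarith [H.ha0]))
    (fun i => htp i i.2) (fun i => ht1 i) (by linarith) (by omega)
    (H.lam' hcard0 hcard)
    (H858.MEIK_sub q hmei hmu (fun i => ht0 i) (fun i => le_rfl) ht0 ht1)
    (by positivity) (by positivity) H.eps_eq H.sm

/-- **`PLaw` gives the rows with the extra coordinate at the low top scales.** -/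
theorem rwo_low_plaw {Q : Prm} {S : Finset ι} {ℓ es : ι → ℝ} {lam u : ∀ i, V i → ℝ}
    {mu : (∀ i, V i) → ℝ} (h : H92.PLaw Q S ℓ es lam u mu) {o : ι} (ho : o ∉ S)
    (hS : ∀ i, i ≠ o → i ∈ S) {sc : ι → Option J} (hsc : ∀ i, sc i = none ↔ i = o)
    {ell : J → ℝ} (hes : ∀ i j, sc i = some j → es i = ell j) (hup : ∀ i ∈ S, ℓ i ≤ es i)
    (hℓ0 : ∀ i, 0 ≤ ℓ i) (q : ι → Prop) [DecidablePred q] (hqo : q o) {b m n : ℕ}
    (hq : ∀ i j, q i → sc i = some j → ell j ≤ n * Real.log 2)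
    (hcard : (Fintype.card {i // q i} : ℝ) ≤ Real.exp (3 * n))
    (H : OrdN b m n Q.CK (ℓ o) Q.a0) (hm : (m : ℝ) ≤ Real.exp (2 * Q.d1 * Q.p))
    (hn : n * Real.log 2 ≤ Q.C1 * Q.p + 1)
    (hlen : ∀ A : Finset ι, A.card ≤ b + 1 → len ℓ A ≤ Q.Λ) (hγ0 : 0 ≤ Q.γ) (hγ1 : Q.γ ≤ 1)
    (hG0 : 0 < Q.G) (hG1 : Q.G ≤ 1 / 4) (hp : 0 ≤ Q.p)
    (hlow : n * Real.log 2 ≤ (2 - 4 * Q.G) * Q.p)
    (hellγ : ∀ i j, q i → sc i = some j → Q.a0 ≤ Q.γ * ell j) {g c1 : ℝ}
    (hc : 2 * (c1 + g) ≤ Q.G / 2 - 6 * Q.γ) {σ : ℝ} (hσ0 : 0 ≤ σ)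
    (hσ : σ ≤ (((1 + ℓ o) * (b * (n * Real.log 2))) ^ (Q.CK + 9))⁻¹) {rho e : ι → ℝ}
    (hρ0 : ∀ i, 0 ≤ rho i) (he0 : ∀ i, 0 ≤ e i)
    (hρ1 : ∀ i, i ≠ o → rho i ≤ Real.exp (-(1 / 2) * es i + Q.γ * es i))
    (he1 : ∀ i, i ≠ o → e i ≤ Real.exp (-es i + Q.γ * es i))
    (hρo : Real.exp (2 * Q.γ * ℓ o) * rho o ≤ 1) (heo : Real.exp (2 * Q.γ * ℓ o) * e o ≤ 1) :
    RwO (V := fun i : {i // q i} => V i) (lsub q lam) (msub q mu) (fun i => sc i) ell g c1 b
      (fun i => 2 * (σ * rho i)) (fun i => 2 * (σ * e i))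
      (rlo (fun i : {i // q i} => tO Q S es m n o i)
        (fun i => Real.exp (Q.a0 + Q.γ * ℓ i)) b)
      (fun i => 2 * Real.exp (Q.a0 + Q.γ * ℓ i)) (√((b + 1 : ℕ) : ℝ)) (2 * (m * n)) := by
  have hscsome : ∀ i j, sc i = some j → i ≠ o := by
    intro i j hij hio
    rw [(hsc i).2 hio] at hij
    simp at hij
  have hB := bhypO_plaw h ho hS hup hℓ0 q hqo (fun i hqi hi => by
    obtain ⟨j, hj⟩ := Option.ne_none_iff_exists'.1 fun hc => hi ((hsc i).1 hc)
    rw [hes i j hj]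
    exact hq i j hqi hj) hcard H hm hn hlen hγ0 hγ1
  have hto : tO Q S es m n o o = OrdN.τ m n := Function.update_self _ _ _
  have htval : ∀ i j, q i → sc i = some j → tO Q S es m n o i =
      rate ((1 - Q.G) * Q.p) (ell j) / ((m : ℝ) * n) ^ Q.CK := by
    intro i j hqi hij
    have hne := hscsome i j hij
    unfold tO
    rw [Function.update_of_ne hne]
    unfold tF
    rw [if_pos ⟨hS i hne, by rw [hes i j hij]; exact hq i j hqi hij⟩, hes i j hij]
  refine rwO_low hB (Pi := Q.p) (h := 2 * Q.γ) (G := Q.G) (Kf := ((m : ℝ) * n) ^ Q.CK)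
    (σ := 2 * σ) H.b1
    (fun i j hi hj => Subtype.ext (((hsc i).1 hi).trans ((hsc j).1 hj).symm)) (by linarith)
    hG0 hG1 hp H.Kf128 (by linarith) (H.s1 hσ0 hσ) ?_ ?_ ?_ ?_ ?_ ?_ ?_ ?_ (by linarith) ?_ ?_
  · intro i j hij
    have h1 := hup i (hS i (hscsome i j hij))
    rw [hes i j hij] at h1
    exact (hℓ0 i).trans h1
  · exact fun i j hij => (hq i j i.2 hij).trans hlow
  · intro i j hij
    rw [htval i j i.2 hij]
  · intro i j hij
    apply Real.exp_le_exp.2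
    have h1 := hup i (hS i (hscsome i j hij))
    rw [hes i j hij] at h1
    have h2 := hellγ i j i.2 hij
    have h3 := mul_le_mul_of_nonneg_left h1 hγ0
    linarith
  · intro i
    have := hρ0 i
    positivity
  · intro i
    have := he0 i
    positivity
  · intro i j hij
    have h1 := hρ1 i (hscsome i j hij)
    rw [hes i j hij] at h1
    have h1' : rho i ≤ Real.exp (-(1 / 2) * ell j + 2 * Q.γ * ell j) := by
      refine h1.trans (Real.exp_le_exp.2 ?_)
      have h2 := hup i (hS i (hscsome i j hij))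
      rw [hes i j hij] at h2
      have h3 := mul_nonneg hγ0 ((hℓ0 i).trans h2)
      linarith
    calc 2 * (σ * rho i) = (2 * σ) * rho i := by ring
      _ ≤ _ := mul_le_mul_of_nonneg_left h1' (by positivity)
  · intro i j hij
    have h1 := he1 i (hscsome i j hij)
    rw [hes i j hij] at h1
    have h1' : e i ≤ Real.exp (-ell j + 2 * Q.γ * ell j) := by
      refine h1.trans (Real.exp_le_exp.2 ?_)
      have h2 := hup i (hS i (hscsome i j hij))
      rw [hes i j hij] at h2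
      have h3 := mul_nonneg hγ0 ((hℓ0 i).trans h2)
      linarith
    calc 2 * (σ * e i) = (2 * σ) * e i := by ring
      _ ≤ _ := mul_le_mul_of_nonneg_left h1' (by positivity)
  · rintro ⟨i, hi⟩ hio
    have hio' : i = o := (hsc i).1 hio
    subst hio'
    change 2 * (b : ℝ) ^ 3 * (Real.exp (Q.a0 + Q.γ * ℓ i) * (2 * (σ * rho i))) ≤
      tO Q S es m n i i
    rw [hto]
    exact H.o1 hσ0 hσ hγ0 (hρ0 i) hρo
  · rintro ⟨i, hi⟩ hio
    have hio' : i = o := (hsc i).1 hio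
    subst hio'
    exact H.o2 hσ0 hσ (hρ0 i) (he0 i) hρo heo

end Vale.Agent.P042.H372
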