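import Vale.Agent.P042.H564.OoRow
import Vale.Agent.P042.H858.MSub
import Vale.Agent.P042.H365.HsTop

/-!
# P042, row F.INF3 (O4'): the rows with the extra coordinate at the low top scales

`rwO_low`: block [B] (`BHyp`) at a law with one extra coordinate gives helper564's `RwO`, if all
scales are at most `(2-4G) Π`.  `rwO_low_sub`: the same for the marginal law on the sites `p`,
from the full (MEI) of the big law.
-/

set_option autoImplicit false
set_option linter.unusedSectionVars false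

namespace Vale.Agent.P042.H372

open Finset Vale.Agent.P042.H232 Vale.Agent.P042.H461 Vale.Agent.P042.H742 Vale.Agent.P042.H365
  Vale.Agent.P042.H416 Vale.Agent.P042.H564.Oo
open Vale.Agent.P042.H779 (m1)
open Vale.Agent.P042.H161 (Rws)

/-! ### the numbers at one leg -/

theorem leg_low {x G Pi h Kf σ c : ℝ} {b : ℕ} (hb : 1 ≤ b) (hG0 : 0 < G) (hG1 : G ≤ 1 / 4)
    (hp : 0 ≤ Pi) (hx0 : 0 ≤ x) (hx : x ≤ (2 - 4 * G) * Pi) (hKf : 128 * (b : ℝ) ≤ Kf)
    (hσ : 0 ≤ σ) (hs : 1000 * Kf * σ * (b : ℝ) ^ 4 ≤ 1) (hc : c ≤ G / 2 - 3 * h) (hh : 0 ≤ h)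
    {R t M : ℝ} (hM1 : 1 ≤ M) (hM : M ≤ Real.exp (h * x))
    (ht : rate ((1 - G) * Pi) x / Kf ≤ t)
    (hR : R ≤ σ * Real.exp (-(1 / 2) * x + h * x)) :
    R * (2 * (b : ℝ) ^ 3) ≤ Real.exp (-(c * x)) * (t / M) := by
  have hb1 : (1 : ℝ) ≤ b := by exact_mod_cast hb
  have hKf0 : 0 < Kf := by linarith
  have hM0 : 0 < M := by linarith
  have h1 : Real.exp (-(h * x)) ≤ 1 / M := by
    rw [Real.exp_neg, ← one_div]
    exact one_div_le_one_div_of_le hM0 hM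
  have h2 : Real.exp (-max 0 (x - (1 - G) * Pi) - h * x) / Kf ≤ t / M := by
    rw [rate_eq] at ht
    calc Real.exp (-max 0 (x - (1 - G) * Pi) - h * x) / Kf
        = Real.exp (-max 0 (x - (1 - G) * Pi)) / Kf * Real.exp (-(h * x)) := by
          rw [sub_eq_add_neg, Real.exp_add]; ring
      _ ≤ t * (1 / M) := mul_le_mul ht h1 (Real.exp_pos _).le
          (le_trans (by positivity) ht)
      _ = _ := by ring
  have h3 := phF_le hG0 hG1 hp hx0 hx
  unfold phF at h3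
  have h4 : σ * (2 * (b : ℝ) ^ 3) ≤ 1 / Kf := by
    rw [le_div_iff₀ hKf0]
    have hb34 : (b : ℝ) ^ 3 ≤ (b : ℝ) ^ 4 := pow_le_pow_right₀ hb1 (by norm_num)
    have h5 : Kf * σ * (b : ℝ) ^ 3 ≤ Kf * σ * (b : ℝ) ^ 4 :=
      mul_le_mul_of_nonneg_left hb34 (by positivity)
    nlinarith [mul_nonneg (mul_nonneg hKf0.le hσ) (pow_nonneg (by linarith : (0 : ℝ) ≤ b) 3)]
  calc R * (2 * (b : ℝ) ^ 3)
      ≤ σ * Real.exp (-(1 / 2) * x + h * x) * (2 * (b : ℝ) ^ 3) :=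
        mul_le_mul_of_nonneg_right hR (by positivity)
    _ = (σ * (2 * (b : ℝ) ^ 3)) * Real.exp (-(1 / 2) * x + h * x) := by ring
    _ ≤ (1 / Kf) * Real.exp (-(1 / 2) * x + h * x) :=
        mul_le_mul_of_nonneg_right h4 (Real.exp_pos _).le
    _ ≤ (1 / Kf) * Real.exp (-(c * x) + (-max 0 (x - (1 - G) * Pi) - h * x)) := by
        refine mul_le_mul_of_nonneg_left (Real.exp_le_exp.2 ?_) (by positivity)
        have h6 : c * x ≤ (G / 2 - 3 * h) * x := mul_le_mul_of_nonneg_right hc hx0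
        have h7 : 0 ≤ h * x := mul_nonneg hh hx0
        nlinarith
    _ = Real.exp (-(c * x)) * (Real.exp (-max 0 (x - (1 - G) * Pi) - h * x) / Kf) := by
        rw [Real.exp_add]; ring
    _ ≤ _ := mul_le_mul_of_nonneg_left h2 (Real.exp_pos _).le

theorem leg_low' {x h Kf σ c y a : ℝ} {b : ℕ} (hb : 1 ≤ b) (hx0 : 0 ≤ x)
    (hKf : 128 * (b : ℝ) ≤ Kf) (hσ : 0 ≤ σ) (hs : 1000 * Kf * σ * (b : ℝ) ^ 4 ≤ 1)
    (hc : c ≤ a - 3 * h) {M : ℝ} (hM1 : 1 ≤ M) (hM : M ≤ Real.exp (h * x))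
    (hy : y ≤ σ * Real.exp (-a * x + h * x)) :
    512 * (b : ℝ) ^ 4 * M ^ 2 * y ≤ Real.exp (-(c * x)) := by
  have hb1 : (1 : ℝ) ≤ b := by exact_mod_cast hb
  have hKf1 : 1 ≤ Kf := by linarith
  have h1 : 512 * (b : ℝ) ^ 4 * σ ≤ 1 := by
    have h2 : 0 ≤ σ * (b : ℝ) ^ 4 := by positivity
    nlinarith
  have h3 : M ^ 2 ≤ Real.exp (2 * (h * x)) := by
    rw [show 2 * (h * x) = ((2 : ℕ) : ℝ) * (h * x) by norm_num, Real.exp_nat_mul]
    exact pow_le_pow_left₀ (by linarith) hM 2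
  calc 512 * (b : ℝ) ^ 4 * M ^ 2 * y
      ≤ 512 * (b : ℝ) ^ 4 * M ^ 2 * (σ * Real.exp (-a * x + h * x)) :=
        mul_le_mul_of_nonneg_left hy (by positivity)
    _ = (512 * (b : ℝ) ^ 4 * σ) * (M ^ 2 * Real.exp (-a * x + h * x)) := by ring
    _ ≤ 1 * (Real.exp (2 * (h * x)) * Real.exp (-a * x + h * x)) :=
        mul_le_mul h1 (mul_le_mul_of_nonneg_right h3 (Real.exp_pos _).le) (by positivity)
          zero_le_one
    _ = Real.exp (2 * (h * x) + (-a * x + h * x)) := by rw [one_mul, ← Real.exp_add]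
    _ ≤ _ := by
        apply Real.exp_le_exp.2
        have h6 : c * x ≤ (a - 3 * h) * x := mul_le_mul_of_nonneg_right hc hx0
        nlinarith

universe v

variable {J : Type v} {ι : Type*} [Fintype ι] [DecidableEq ι] {V : ι → Type*}
  [∀ i, Fintype (V i)] [∀ i, DecidableEq (V i)]

/-- the rates of the rows: capped by the condition `coord` -/
noncomputable def rlo (t M : ι → ℝ) (b : ℕ) (i : ι) : ℝ :=
  min (t i / M i) (((b : ℝ) + 1) / (512 * b ^ 2 * M i ^ 2))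

/-- **Rows with an extra coordinate at the low top scales.** -/
theorem rwO_low {lam : ∀ i, V i → ℝ} {mu : (∀ i, V i) → ℝ} {sc : ι → Option J} {ell : J → ℝ}
    {t M R E : ι → ℝ} {L Λ ε κ δ g c1 G Pi h Kf σ : ℝ} {b : ℕ}
    (hB : BHyp lam mu t M L Λ ε κ δ (b + 1)) (hb : 1 ≤ b)
    (huniq : ∀ i j, sc i = none → sc j = none → i = j)
    (hh : 0 ≤ h) (hG0 : 0 < G) (hG1 : G ≤ 1 / 4) (hPi : 0 ≤ Pi) (hKf : 128 * (b : ℝ) ≤ Kf)
    (hσ : 0 ≤ σ) (hs : 1000 * Kf * σ * (b : ℝ) ^ 4 ≤ 1)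
    (hell : ∀ i j, sc i = some j → 0 ≤ ell j)
    (hlow : ∀ i j, sc i = some j → ell j ≤ (2 - 4 * G) * Pi)
    (ht : ∀ i j, sc i = some j → rate ((1 - G) * Pi) (ell j) / Kf ≤ t i)
    (hM : ∀ i j, sc i = some j → M i ≤ Real.exp (h * ell j))
    (hR0 : ∀ i, 0 ≤ R i) (hE0 : ∀ i, 0 ≤ E i)
    (hR1 : ∀ i j, sc i = some j → R i ≤ σ * Real.exp (-(1 / 2) * ell j + h * ell j))
    (hE1 : ∀ i j, sc i = some j → E i ≤ σ * Real.exp (-ell j + h * ell j))
    (hc : 2 * (c1 + g) ≤ G / 2 - 3 * h)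
    (ho1 : ∀ i, sc i = none → 2 * (b : ℝ) ^ 3 * (M i * R i) ≤ t i)
    (ho2 : ∀ i, sc i = none → 512 * (b : ℝ) ^ 4 * M i ^ 2 * (R i + E i) ≤ 1) :
    RwO lam mu sc ell g c1 b R E (rlo t M b) (fun i => 2 * M i) (√((b + 1 : ℕ) : ℝ)) L := by
  have hb1 : (1 : ℝ) ≤ b := by exact_mod_cast hb
  have hb0 : (0 : ℝ) < b := by linarith
  have hM1 := hB.M1
  have hM0 : ∀ i, 0 < M i := fun i => by linarith [hM1 i]
  have hθ2 : (√((b + 1 : ℕ) : ℝ)) ^ 2 = (b : ℝ) + 1 := by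
    rw [Real.sq_sqrt (Nat.cast_nonneg _)]
    push_cast
    rfl
  have hr0 : ∀ i, 0 ≤ rlo t M b i := fun i => by
    have h1 := (hB.t0 i).le
    have h2 := (hM0 i).le
    exact le_min (div_nonneg h1 h2) (by positivity)
  refine
    { rws := (H161.BHyp.rws hB).mono hB.ref.nonneg hr0 (fun i => min_le_left _ _)
        (fun _ => le_rfl) le_rfl
      ref := hB.ref
      sum := hB.sum
      K1 := fun i => by linarith [hM1 i]
      g1 := fun i a ha => (hB.g1_le i a ha).trans (by linarith [hM1 i])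
      th := ?_
      b1 := hb
      R0 := hR0
      E0 := hE0
      coord := ?_
      leg := ?_
      legE := ?_
      root := ?_
      uniq := huniq }
  · rw [Real.one_le_sqrt]
    exact_mod_cast Nat.le_add_left 1 b
  · intro i
    rw [hθ2]
    have h1 : rlo t M b i ≤ ((b : ℝ) + 1) / (512 * b ^ 2 * M i ^ 2) := min_le_right _ _
    have h2 := hM0 i
    rw [le_div_iff₀ (by positivity)] at h1
    calc _ = rlo t M b i * (512 * b ^ 2 * M i ^ 2) := by ring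
      _ ≤ _ := h1
  · intro i
    have h0 := hM0 i
    have key : ∀ s : ℝ, 0 < s → R i * (2 * (b : ℝ) ^ 3) ≤ s * (t i / M i) →
        512 * (b : ℝ) ^ 4 * M i ^ 2 * R i ≤ s →
        R i * (b * √((b + 1 : ℕ) : ℝ)) ^ 2 ≤ s * rlo t M b i := by
      intro s hs0 h1 h2
      rw [mul_pow, hθ2]
      unfold rlo
      rw [mul_min_of_nonneg _ _ hs0.le]
      refine le_min ?_ ?_
      · refine le_trans ?_ h1
        refine mul_le_mul_of_nonneg_left ?_ (hR0 i)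
        have : (b : ℝ) ^ 2 ≤ (b : ℝ) ^ 3 := pow_le_pow_right₀ hb1 (by norm_num)
        nlinarith
      · rw [mul_div_assoc', le_div_iff₀ (by positivity)]
        calc R i * ((b : ℝ) ^ 2 * ((b : ℝ) + 1)) * (512 * b ^ 2 * M i ^ 2)
            = (512 * (b : ℝ) ^ 4 * M i ^ 2 * R i) * ((b : ℝ) + 1) := by ring
          _ ≤ s * ((b : ℝ) + 1) := mul_le_mul_of_nonneg_right h2 (by positivity)
    cases hi : sc i with
    | none =>
      rw [el_none, mul_zero, neg_zero, Real.exp_zero]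
      refine key 1 one_pos ?_ ?_
      · rw [one_mul, le_div_iff₀ h0]
        have := ho1 i hi
        linarith
      · refine le_trans ?_ (ho2 i hi)
        exact mul_le_mul_of_nonneg_left (by linarith [hE0 i]) (by positivity)
    | some j =>
      rw [el_some]
      refine key _ (Real.exp_pos _) ?_ ?_
      · exact leg_low hb hG0 hG1 hPi (hell i j hi) (hlow i j hi) hKf hσ hs hc hh (hM1 i)
          (hM i j hi) (ht i j hi) (hR1 i j hi)
      · exact leg_low' (a := 1 / 2) hb (hell i j hi) hKf hσ hs (by linarith) (hM1 i)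
          (hM i j hi) (hR1 i j hi)
  · intro i
    have h0 := hM0 i
    have e1 : 128 * (b : ℝ) ^ 4 * (2 * M i) ^ 2 * E i = 512 * (b : ℝ) ^ 4 * M i ^ 2 * E i := by
      ring
    rw [e1]
    cases hi : sc i with
    | none =>
      rw [el_none, mul_zero, neg_zero, Real.exp_zero]
      refine le_trans ?_ (ho2 i hi)
      exact mul_le_mul_of_nonneg_left (by linarith [hR0 i]) (by positivity)
    | some j =>
      rw [el_some]
      refine leg_low' (a := 1) hb (hell i j hi) hKf hσ hs (by linarith) (hM1 i) (hM i j hi) ?_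
      have := hE1 i j hi
      rwa [show -(1 : ℝ) * ell j + h * ell j = -ell j + h * ell j by ring]
  · intro i hi
    have h1 := ho2 i hi
    have h2 : (1 : ℝ) ≤ (b : ℝ) ^ 4 := one_le_pow₀ hb1
    have h3 : 0 ≤ M i ^ 2 * (R i + E i) :=
      mul_nonneg (sq_nonneg _) (add_nonneg (hR0 i) (hE0 i))
    calc 4 * (2 * M i) ^ 2 * (R i + E i) = 16 * 1 * (M i ^ 2 * (R i + E i)) := by ring
      _ ≤ 512 * (b : ℝ) ^ 4 * (M i ^ 2 * (R i + E i)) := by
          apply mul_le_mul_of_nonneg_right _ h3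
          linarith
      _ = 512 * (b : ℝ) ^ 4 * M i ^ 2 * (R i + E i) := by ring
      _ ≤ 1 := h1

open Vale.Agent.P042.H858 in
/-- **The same at the marginal law on the sites `p`**, from the full (MEI) of the big law. -/
theorem rwO_low_sub (p : ι → Prop) [DecidablePred p] {lam : ∀ i, V i → ℝ}
    {mu : (∀ i, V i) → ℝ} {sc : ι → Option J} {ell : J → ℝ} {t M : ι → ℝ}
    {R E : {i // p i} → ℝ} {L Λ ε e1 g c1 G Pi h Kf σ : ℝ} {b : ℕ}
    (hmu : IsLaw mu) (hRef : Ref (V := fun i : {i // p i} => V i) (lsub p lam) L)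
    (hI : H678.I1M lam M (b + 1) mu) (hM1 : ∀ i, 1 ≤ M i)
    (ht0 : ∀ i, 0 ≤ t i) (ht1 : ∀ i, t i ≤ 1) (htp : ∀ i, p i → 0 < t i) (hL : 0 ≤ L)
    (hΛ : ((b + 1 : ℕ) : ℝ) * (L + Real.log (Fintype.card {i // p i} * ((b + 1 : ℕ) : ℝ))) + 3
      ≤ Λ)
    (hmei : MEIK t ε e1 (Real.exp (6 * Λ)) mu) (hε : 0 ≤ ε) (he1 : 0 ≤ e1)
    (hs' : 704 * ε * Λ ≤ 1)
    (hsm : ((b + 1 : ℕ) : ℝ) * (e1 + 6 * Λ * Real.exp (-(3 * Λ))) ≤ ε * Λ)
    (hb : 1 ≤ b) (huniq : ∀ i j, p i → p j → sc i = none → sc j = none → i = j)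
    (hh : 0 ≤ h) (hG0 : 0 < G) (hG1 : G ≤ 1 / 4) (hPi : 0 ≤ Pi) (hKf : 128 * (b : ℝ) ≤ Kf)
    (hσ : 0 ≤ σ) (hs : 1000 * Kf * σ * (b : ℝ) ^ 4 ≤ 1)
    (hell : ∀ i j, p i → sc i = some j → 0 ≤ ell j)
    (hlow : ∀ i j, p i → sc i = some j → ell j ≤ (2 - 4 * G) * Pi)
    (ht : ∀ i j, p i → sc i = some j → rate ((1 - G) * Pi) (ell j) / Kf ≤ t i)
    (hM : ∀ i j, p i → sc i = some j → M i ≤ Real.exp (h * ell j))
    (hR0 : ∀ i, 0 ≤ R i) (hE0 : ∀ i, 0 ≤ E i)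
    (hR1 : ∀ (i : {i // p i}) j, sc i = some j →
      R i ≤ σ * Real.exp (-(1 / 2) * ell j + h * ell j))
    (hE1 : ∀ (i : {i // p i}) j, sc i = some j → E i ≤ σ * Real.exp (-ell j + h * ell j))
    (hc : 2 * (c1 + g) ≤ G / 2 - 3 * h)
    (ho1 : ∀ i : {i // p i}, sc i = none → 2 * (b : ℝ) ^ 3 * (M i * R i) ≤ t i)
    (ho2 : ∀ i : {i // p i}, sc i = none →
      512 * (b : ℝ) ^ 4 * M i ^ 2 * (R i + E i) ≤ 1) :
    RwO (V := fun i : {i // p i} => V i) (lsub p lam) (msub p mu) (fun i => sc i) ell g c1 b R E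
      (rlo (fun i : {i // p i} => t i) (fun i => M i) b) (fun i => 2 * M i)
      (√((b + 1 : ℕ) : ℝ)) L := by
  have hB : BHyp (V := fun i : {i // p i} => V i) (lsub p lam) (msub p mu)
      (fun i : {i // p i} => t i) (fun i => M i) L Λ ε Λ (Real.exp (-(3 * Λ))) (b + 1) :=
    bhyp_of_meik (msub_isLaw hmu) hRef (I1M_sub p hI hmu) (fun i => hM1 i)
      (fun i => htp i i.2) (fun i => ht1 i) hL (by omega) hΛ
      (MEIK_sub p hmei hmu (fun i => ht0 i) (fun i => le_rfl) ht0 ht1) hε he1 hs' hsm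
  exact rwO_low hB hb
    (fun i j hi hj => Subtype.ext (huniq i j i.2 j.2 hi hj)) hh hG0 hG1 hPi hKf hσ hs
    (fun i j => hell i j i.2) (fun i j => hlow i j i.2) (fun i j => ht i j i.2)
    (fun i j => hM i j i.2) hR0 hE0 hR1 hE1 hc ho1 ho2

end Vale.Agent.P042.H372
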